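import Vale.Agent.P141.Analytic

namespace Vale.Agent.Results.P141.UnboundedRange

open Vale.Agent.P141
open scoped ENNReal

theorem result : ∀ (p₁ p₂ p₃ : ℝ≥0∞) (r : ℝ), 0 < r →
    (r < Real.log 13 / Real.log (676 / 3) ∨
      r * Real.log 100 + r / p₂.toReal * Real.log 2 < Real.log 10) →
    p₁⁻¹ + p₂⁻¹ + p₃⁻¹ = (ENNReal.ofReal r)⁻¹ → ¬ THTBoundedAt p₁ p₂ p₃ r :=
  fun _ _ _ _ h0 h1 h2 => not_boundedAt h0 h1 h2

end Vale.Agent.Results.P141.UnboundedRange
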